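import Vale.Agent.P032X.H642.Rh
import Vale.Agent.P032W.S5.H394.Arc

/-!
# P032: four coloured points which are limits of ends

`z` a centre with the exact pairs `ab` and `cd`, missing colours `e`, `f`.  A four coloured point `V` of
`S(z)` with both missing colours in the closure of the exact `ab`-arcs, at which no exact arc starts, is a
limit of end points of exact `ab`-arcs (`near_end`, `ends_infinite`).  If all end points are good ends, `S(z)`
has three different end points of exact `cd`-arcs and clean ends of both marks, this is impossible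
(`no_pinch`): the counts of `H642/Rh.lean`.
-/

open Set Filter Topology Metric

noncomputable section

namespace Vale.Agent.P032.H821

open Vale.Agent.P032.Six Vale.Agent.P032.S5.H767 Vale.Agent.P032.H642

section general

variable {U : Fin 6 → Set ℂ} {T : ℂ → Set (Fin 6)}

theorem closure_of_st {z v : ℂ} {P : Set (Fin 6)} (hs : St T z v P) : v ∈ closure (Ex T z P) := by
  obtain ⟨o, ε, -, hε, harc⟩ := hs
  have hcont : Continuous fun t : ℝ => z + (v - z) * cis (-(o * t)) :=
    continuous_const.add (continuous_const.mul (continuous_cis.comp (by fun_prop)))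
  have h1 : (0 : ℝ) ∈ closure (Ioo 0 ε) := by
    rw [closure_Ioo hε.ne]; exact ⟨le_rfl, hε.le⟩
  have h2 := (hcont.continuousWithinAt (s := Ioo 0 ε) (x := 0)).mem_closure_image h1
  have e : z + (v - z) * cis (-(o * 0)) = v := by
    rw [mul_zero, neg_zero]
    have : cis 0 = 1 := by simp [cis]
    rw [this]; ring
  rw [e] at h2
  refine closure_mono ?_ h2
  rintro _ ⟨t, ht, rfl⟩
  exact harc t ht

/-- an end point of an exact arc -/
def Te (T : ℂ → Set (Fin 6)) (z v : ℂ) (P : Set (Fin 6)) : Prop := St T z v P ∧ P ⊂ T v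

/-- **a limit of exact arcs where no arc starts is a limit of end points** -/
theorem near_end (h : Irr U T) {z V : ℂ} {P : Set (Fin 6)} (hP : P.ncard = 2) (hPz : P ⊆ T z)
    (hV : V ∈ closure (Ex T z P)) (hVP : T V ≠ P) (hns : ¬ St T z V P) {W : Set ℂ}
    (hW : W ∈ 𝓝 V) : ∃ w ∈ W, w ≠ V ∧ Te T z w P := by
  have hVz := dist_of_closure hV
  obtain ⟨θ, hθ⟩ := exists_cis (u := V - z) (by rw [← dist_eq_norm]; exact hVz)
  have hVθ : V = z + cis θ := by rw [← hθ]; ring
  have hc : Continuous fun t : ℝ => z + cis (θ + t) :=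
    continuous_const.add (continuous_cis.comp (by fun_prop))
  have hW' : ∀ᶠ t in 𝓝 (0 : ℝ), z + cis (θ + t) ∈ W := by
    have := hc.tendsto 0
    rw [add_zero, ← hVθ] at this
    exact this.eventually hW
  obtain ⟨η, hη, hball⟩ := Metric.eventually_nhds_iff.1 hW'
  -- a point of an exact arc close to `V`
  obtain ⟨y, hyE, t0, ht0, ht1, hyt⟩ : ∃ y ∈ Ex T z P, ∃ t0 : ℝ, t0 ≠ 0 ∧ |t0| < min η 1 ∧
      y = z + cis (θ + t0) := by
    have hη1 : 0 < min η 1 := lt_min hη one_pos
    -- neighbourhood of `V` in the circle is in the image of a small interval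
    obtain ⟨r, hr, hr1⟩ : ∃ r > 0, ∀ y, dist y z = 1 → dist y V < r →
        ∃ t0 : ℝ, |t0| < min η 1 ∧ y = z + cis (θ + t0) := by
      have hcl : ContinuousAt (fun y : ℂ => Complex.arg ((y - z) / cis θ)) V := by
        have e : (V - z) / cis θ = 1 := by
          rw [hθ, div_self]; intro h0
          have := norm_cis θ; rw [h0, norm_zero] at this; exact zero_ne_one this
        have h1 : ContinuousAt Complex.arg ((V - z) / cis θ) := by
          rw [e]; exact Complex.continuousAt_arg (by simp [Complex.mem_slitPlane_iff])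
        exact ContinuousAt.comp (f := fun y : ℂ => (y - z) / cis θ) h1 (by fun_prop)
      have e0 : Complex.arg ((V - z) / cis θ) = 0 := by
        have e : (V - z) / cis θ = 1 := by
          rw [hθ, div_self]; intro h0
          have := norm_cis θ; rw [h0, norm_zero] at this; exact zero_ne_one this
        rw [e, Complex.arg_one]
      obtain ⟨r, hr, hr1⟩ := Metric.continuousAt_iff.1 hcl (min η 1) hη1
      refine ⟨r, hr, fun y hy hyV => ⟨Complex.arg ((y - z) / cis θ), ?_, ?_⟩⟩
      · have := hr1 hyV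
        rw [e0, Real.dist_eq, sub_zero] at this
        exact this
      · have hn : ‖(y - z) / cis θ‖ = 1 := by
          rw [norm_div, norm_cis, div_one, ← dist_eq_norm]; exact hy
        have h2 := Complex.norm_mul_exp_arg_mul_I ((y - z) / cis θ)
        rw [hn, Complex.ofReal_one, one_mul] at h2
        have h3 : cis (θ + Complex.arg ((y - z) / cis θ)) = y - z := by
          have h4 : cis (θ + Complex.arg ((y - z) / cis θ)) =
              cis θ * Complex.exp (Complex.arg ((y - z) / cis θ) * Complex.I) := by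
            unfold cis
            rw [← Complex.exp_add]; congr 1; push_cast; ring
          have h5 : cis θ ≠ 0 := by
            intro h0
            have := norm_cis θ; rw [h0, norm_zero] at this; exact zero_ne_one this
          rw [h4, h2, mul_div_cancel₀ _ h5]
        rw [h3]; ring
    obtain ⟨y, hyr, hyE⟩ := mem_closure_iff_nhds.1 hV _ (ball_mem_nhds V hr)
    obtain ⟨t0, h1, h2⟩ := hr1 y hyE.1 (mem_ball.1 hyr)
    refine ⟨y, hyE, t0, fun h0 => ?_, h1, h2⟩
    rw [h0, add_zero, ← hVθ] at h2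
    exact hVP (by rw [← h2]; exact ex_self hyE)
  -- the arc from `y` towards `V`
  obtain ⟨o, ho, hto⟩ : ∃ o : ℝ, (o = 1 ∨ o = -1) ∧ t0 = o * |t0| := by
    rcases lt_or_gt_of_ne ht0 with h1 | h1
    · exact ⟨-1, Or.inr rfl, by rw [abs_of_neg h1]; ring⟩
    · exact ⟨1, Or.inl rfl, by rw [abs_of_pos h1]; ring⟩
  have hpos : 0 < |t0| := abs_pos.2 ht0
  have hc2 : Continuous fun t : ℝ => z + cis (θ + t0 - o * t) :=
    continuous_const.add (continuous_cis.comp (by fun_prop))
  obtain ⟨ε, hε, hεb⟩ : ∃ ε > 0, ∀ t, |t| < ε → T (z + cis (θ + t0 - o * t)) = P := by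
    have h3 : Tendsto (fun t : ℝ => z + cis (θ + t0 - o * t)) (𝓝 0) (𝓝[sphere z 1] y) := by
      refine tendsto_nhdsWithin_iff.2 ⟨?_, Eventually.of_forall fun t => dist_add_cis z _⟩
      have := hc2.tendsto 0
      rw [mul_zero, sub_zero, ← hyt] at this
      exact this
    obtain ⟨ε, hε, hb⟩ := Metric.eventually_nhds_iff.1 (h3.eventually hyE.2)
    exact ⟨ε, hε, fun t ht => hb (by rw [Real.dist_eq, sub_zero]; exact ht)⟩
  obtain ⟨l, hl0, -, -, hlt, hss⟩ := h.exists_arc (z := z) (P := P) (θ := θ + t0) (o := o) ho hP hPz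
    hε (fun t ht => hεb t (by rw [abs_of_pos ht.1]; exact ht.2))
  -- points of the arc are in `Ex`
  have hEx : ∀ t ∈ Ioo 0 l, z + cis (θ + t0 - o * t) ∈ Ex T z P := fun t ht =>
    ⟨dist_add_cis z _, h.pair_open hP hPz (hlt t ht).subset⟩
  set w := z + cis (θ + t0 - o * l) with hw
  have hst : St T z w P := by
    refine ⟨-o, l, ?_, hl0, fun t ht => ?_⟩
    · rcases ho with h1 | h1 <;> rw [h1] <;> norm_num
    · have e : z + (w - z) * cis (-(-o * t)) = z + cis (θ + t0 - o * (l - t)) := by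
        rw [hw, add_sub_cancel_left]
        congr 1
        unfold cis
        rw [← Complex.exp_add]; congr 1; push_cast; ring
      rw [e]
      exact hEx _ ⟨by linarith [ht.2], by linarith [ht.1]⟩
  have hwV : w ≠ V := by
    intro h1
    rw [h1] at hst
    exact hns hst
  -- `l < |t0|`
  have hl : l < |t0| := by
    by_contra hcon
    rcases eq_or_lt_of_le (not_lt.1 hcon) with h1 | h1
    · apply hwV
      rw [hw, hVθ, ← h1]
      congr 2
      linarith
    · apply hVP
      have h2 := hlt |t0| ⟨hpos, h1⟩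
      have e : z + cis (θ + t0 - o * |t0|) = V := by
        rw [hVθ]; congr 2; linarith
      rw [e] at h2
      exact h2
  refine ⟨w, ?_, hwV, hst, hss⟩
  have h1 : w = z + cis (θ + (t0 - o * l)) := by rw [hw]; congr 2; ring
  rw [h1]
  refine hball ?_
  rw [Real.dist_eq, sub_zero]
  have h2 : t0 - o * l = o * (|t0| - l) := by linear_combination hto
  rw [h2, abs_mul]
  have h3 : |o| = 1 := by rcases ho with h | h <;> rw [h] <;> simp
  rw [h3, one_mul, abs_of_pos (by linarith)]
  have := min_le_left η 1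
  linarith

/-- there are infinitely many end points -/
theorem ends_infinite (h : Irr U T) {z V : ℂ} {P : Set (Fin 6)} (hP : P.ncard = 2) (hPz : P ⊆ T z)
    (hV : V ∈ closure (Ex T z P)) (hVP : T V ≠ P) (hns : ¬ St T z V P) :
    {w | Te T z w P ∧ T w ⊆ T V}.Infinite := by
  intro hfin
  have hW : {w | T w ⊆ T V} ∩ ({w | Te T z w P ∧ T w ⊆ T V} \ {V})ᶜ ∈ 𝓝 V := by
    refine Filter.inter_mem (h.nhd V) ?_
    exact (hfin.subset sdiff_subset).isClosed.isOpen_compl.mem_nhds (fun h1 => h1.2 rfl)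
  obtain ⟨w, ⟨hw1, hw2⟩, hwV, hTe⟩ := near_end h hP hPz hV hVP hns hW
  exact hw2 ⟨⟨hTe, hw1⟩, hwV⟩

end general

section core

variable {U : Fin 6 → Set ℂ} {T : ℂ → Set (Fin 6)} {z : ℂ} {a b c d g p e f : Fin 6}

/-- three different elements of an infinite set -/
theorem three_of_infinite {M : Set ℂ} (hM : M.Infinite) :
    ∃ x ∈ M, ∃ y ∈ M, ∃ w ∈ M, x ≠ y ∧ x ≠ w ∧ y ≠ w := by
  obtain ⟨x, hx⟩ := hM.nonempty
  obtain ⟨y, hy, hyx⟩ := (hM.sdiff (Set.finite_singleton x)).nonempty
  obtain ⟨w, hw, hwx⟩ := (hM.sdiff ((Set.finite_singleton y).insert x)).nonempty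
  refine ⟨x, hx, y, hy, w, hw, fun h1 => hyx h1.symm, fun h1 => hwx ?_, fun h1 => hwx ?_⟩
  · rw [← h1]; exact Or.inl rfl
  · rw [← h1]; exact Or.inr rfl

/-- a good end of the pair `ab` with mark `g`, missing colours `g`, `p` -/
structure Gd (T : ℂ → Set (Fin 6)) (y : ℂ) (a b g p : Fin 6) : Prop where
  mem : g ∈ T y
  sub : T y ⊆ {a, b, g, p}
  fc : Fc T y {a, b, g}
  nv : p ∈ T y → ∀ x, dist x y = 1 → T x ≠ {g, p}

theorem nodup_swap (nd : [a, b, c, d, g, p].Nodup) : [a, b, c, d, p, g].Nodup := by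
  have : [a, b, c, d, p, g].Perm [a, b, c, d, g, p] := by
    refine List.Perm.cons _ (List.Perm.cons _ (List.Perm.cons _ (List.Perm.cons _ ?_)))
    exact List.Perm.swap _ _ _
  exact this.nodup_iff.2 nd

/-- **infinitely many good ends of one mark are impossible** -/
theorem no_inf (h : Irr U T) (hmn : Mn4 U T) (h4 : ∀ x, (T x).ncard ≤ 4)
    (nd : [a, b, c, d, g, p].Nodup) (pal : T z = {a, b, c, d}) {M : Set ℂ} (hM : M.Infinite)
    (hMg : ∀ w ∈ M, St T z w {a, b} ∧ Gd T w a b g p) {E1 E2 E3 : ℂ} (n12 : E1 ≠ E2)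
    (n13 : E1 ≠ E3) (n23 : E2 ≠ E3)
    (hE : ∀ x, x = E1 ∨ x = E2 ∨ x = E3 → St T z x {c, d} ∧ (Gd T x c d g p ∨ Gd T x c d p g))
    (L1 : ∃ q, (q ∈ closure (Ex T z {a, b}) ∧ T q = {a, b, p}) ∨
      (q ∈ closure (Ex T z {c, d}) ∧ T q = {c, d, p})) : False := by
  obtain ⟨w1, h1, w2, h2, w3, h3, k12, k13, k23⟩ := three_of_infinite hM
  have hn := nd
  simp only [List.nodup_cons, List.mem_cons, List.not_mem_nil, or_false, not_or, List.nodup_nil,
    and_true, not_false_eq_true] at hn
  obtain ⟨⟨ab, ac, ad, ag, ap⟩, ⟨bc, bd, bg, bp⟩, ⟨cd, cg, cp⟩, ⟨dg, dp⟩, gp⟩ := hn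
  have three : ∀ {x y t : Fin 6} {q : ℂ}, T q = {x, y, t} → (T q).ncard ≤ 3 := by
    intro x y t q hq
    rw [hq]
    have h1 := Set.ncard_insert_le x ({y, t} : Set (Fin 6))
    have h2 := Set.ncard_insert_le y ({t} : Set (Fin 6))
    rw [Set.ncard_singleton] at h2
    omega
  -- no second end of mark `p`
  have key : ∀ q, q ∈ closure (Ex T z {c, d}) → p ∈ T q → T q ⊆ {c, d, g, p} →
      Fc T q {c, d, p} → (g ∈ T q → ∀ y, dist y q = 1 → T y ≠ {p, g}) → False := by
    intro q hq hp hs hF hnv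
    have G : ∀ w ∈ M, GP T z w q a b c d g p := fun w hw =>
      ⟨nd, pal, closure_of_st (hMg w hw).1, hq, (hMg w hw).2.mem, hp, (hMg w hw).2.sub, hs,
        (hMg w hw).2.fc, hF⟩
    rcases (G w1 h1).swap.count_two h hmn h4 (G w2 h2).swap (G w3 h3).swap hnv
      (Or.inr (Or.inr (Or.inl (hMg w1 h1).1))) (Or.inr (Or.inr (Or.inl (hMg w2 h2).1))) with
      h5 | h5 | h5
    · exact k12 h5
    · exact k13 h5
    · exact k23 h5
  have hE' : ∀ x, x = E1 ∨ x = E2 ∨ x = E3 → St T z x {c, d} ∧ Gd T x c d g p := by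
    intro x hx
    obtain ⟨s1, s2⟩ := hE x hx
    rcases s2 with s2 | s2
    · exact ⟨s1, s2⟩
    · refine (key x (closure_of_st s1) s2.mem (s2.sub.trans ?_) s2.fc s2.nv).elim
      intro i
      simp only [mem_insert_iff, mem_singleton_iff]
      tauto
  obtain ⟨q, ⟨hq, hT⟩ | ⟨hq, hT⟩⟩ := L1
  · -- a clean `ab`-end of mark `p`
    have hgq : g ∉ T q := by
      rw [hT]
      simp only [mem_insert_iff, mem_singleton_iff, not_or]
      exact ⟨fun h => ag h.symm, fun h => bg h.symm, gp⟩
    have G : ∀ x, x = E1 ∨ x = E2 ∨ x = E3 → GP T z q x a b c d p g := fun x hx =>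
      ⟨nodup_swap nd, pal, hq, closure_of_st (hE' x hx).1, by rw [hT]; simp, (hE' x hx).2.mem,
        by rw [hT]; intro i; simp only [mem_insert_iff, mem_singleton_iff]; tauto,
        (hE' x hx).2.sub.trans (by intro i; simp only [mem_insert_iff, mem_singleton_iff]; tauto),
        (by rw [← hT]; exact fc_three h (three hT)), (hE' x hx).2.fc⟩
    rcases (G E1 (Or.inl rfl)).count_two h hmn h4 (G E2 (Or.inr (Or.inl rfl)))
      (G E3 (Or.inr (Or.inr rfl))) (fun h5 => absurd h5 hgq) (Or.inl hgq) (Or.inl hgq) with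
      h5 | h5 | h5
    · exact n12 h5
    · exact n13 h5
    · exact n23 h5
  · refine key q hq (by rw [hT]; simp) ?_ ?_ ?_
    · rw [hT]; intro i; simp only [mem_insert_iff, mem_singleton_iff]; tauto
    · rw [← hT]; exact fc_three h (three hT)
    · intro h5
      rw [hT] at h5
      simp only [mem_insert_iff, mem_singleton_iff] at h5
      rcases h5 with h5 | h5 | h5
      · exact absurd h5.symm cg
      · exact absurd h5.symm dg
      · exact absurd h5 gp

/-- **no pinch**: if all end points of the exact arcs of `S(z)` are good ends, there are three end points of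
exact `cd`-arcs and clean ends of both marks, then an exact `ab`-arc starts at every four coloured point of
the closure of the exact `ab`-arcs -/
theorem no_pinch (h : Irr U T) (hmn : Mn4 U T) (h4 : ∀ x, (T x).ncard ≤ 4)
    (nd : [a, b, c, d, e, f].Nodup) (pal : T z = {a, b, c, d})
    (hab : ∀ w, Te T z w {a, b} → Gd T w a b e f ∨ Gd T w a b f e) {E1 E2 E3 : ℂ} (n12 : E1 ≠ E2)
    (n13 : E1 ≠ E3) (n23 : E2 ≠ E3)
    (hE : ∀ x, x = E1 ∨ x = E2 ∨ x = E3 → St T z x {c, d} ∧ (Gd T x c d e f ∨ Gd T x c d f e))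
    (L1e : ∃ q, (q ∈ closure (Ex T z {a, b}) ∧ T q = {a, b, e}) ∨
      (q ∈ closure (Ex T z {c, d}) ∧ T q = {c, d, e}))
    (L1f : ∃ q, (q ∈ closure (Ex T z {a, b}) ∧ T q = {a, b, f}) ∨
      (q ∈ closure (Ex T z {c, d}) ∧ T q = {c, d, f}))
    {V : ℂ} (hV : V ∈ closure (Ex T z {a, b})) (hVP : T V ≠ {a, b}) : St T z V {a, b} := by
  by_contra hns
  have hn := nd
  simp only [List.nodup_cons, List.mem_cons, List.not_mem_nil, or_false, not_or, List.nodup_nil,
    and_true, not_false_eq_true] at hn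
  have hinf := ends_infinite h (Set.ncard_pair hn.1.1)
    (by rw [pal]; intro i; simp only [mem_insert_iff, mem_singleton_iff]; tauto) hV hVP hns
  have hun : {w | Te T z w {a, b} ∧ T w ⊆ T V} ⊆
      {w | St T z w {a, b} ∧ Gd T w a b e f} ∪ {w | St T z w {a, b} ∧ Gd T w a b f e} := by
    rintro w ⟨hw, -⟩
    rcases hab w hw with h1 | h1
    · exact Or.inl ⟨hw.1, h1⟩
    · exact Or.inr ⟨hw.1, h1⟩
  rcases Set.infinite_union.1 (hinf.mono hun) with h1 | h1
  · exact no_inf h hmn h4 nd pal h1 (fun w hw => hw) n12 n13 n23 hE L1f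
  · exact no_inf h hmn h4 (nodup_swap nd) pal h1 (fun w hw => hw) n12 n13 n23
      (fun x hx => ⟨(hE x hx).1, (hE x hx).2.symm⟩) L1e

end core

end Vale.Agent.P032.H821
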