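import Vale.Agent.P032X.H642.AbefG
import Vale.Agent.P032X.H821.NvC
import Vale.Agent.P032X.H22.End

/-!
# P032: no exact `ef`-arcs at special ends, from the cusp lemma at true end points

`CuE T z a b e f` : at a point with both missing colours where an exact `ab`-arc of `S(z)` starts there is no
exact `ef`-arc (cusp lemma, pure arc form).  `nvE_of`: then `NvE` holds for all points of the closure (a point
where no arc starts is a limit of infinitely many good ends of one mark, against the counts).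
`hm_of`: a special point of the closure which is not a two-pair point is `Hm`.  `no_special'`: the theorem
`no_special` of `H642/AbefG.lean` with the cusp lemma at true end points only.
-/

open Set Filter Topology Metric

noncomputable section

namespace Vale.Agent.P032.H821

open Vale.Agent.P032.Six Vale.Agent.P032.S5.H767 Vale.Agent.P032.S5.H349 Vale.Agent.P032.H350
open Vale.Agent.P032.H642

variable {U : Fin 6 → Set ℂ} {T : ℂ → Set (Fin 6)} {z y V : ℂ} {a b c d e f g p : Fin 6}

/-- the cusp lemma at the true end points of the exact `ab`-arcs -/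
def CuE (T : ℂ → Set (Fin 6)) (z : ℂ) (a b e f : Fin 6) : Prop :=
  ∀ y, St T z y {a, b} → T y = {a, b, e, f} → ∀ x, dist x y = 1 → T x ≠ {e, f}

theorem CuE.flip (K : CuE T z a b e f) : CuE T z a b f e := by
  intro y hy hT x hx
  rw [Set.pair_comm]
  refine K y hy ?_ x hx
  rw [hT]; ext i; simp only [mem_insert_iff, mem_singleton_iff]; tauto

/-- a special point of the closure which is not a two-pair point -/
theorem hm_of (h : Irr U T) (hmin : Mn U T) (nd : [a, b, e, f].Nodup)
    (hy : y ∈ closure (Ex T z {a, b})) (h4 : (T y).ncard ≤ 4) (hs : T y ⊆ {a, b, e, f})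
    (hD : 4 ≤ (T y).ncard → ∀ p q r s, ¬ DPt T y p q r s) : Hm T a b e f y := by
  by_cases h3 : (T y).ncard ≤ 3
  · exact Or.inl h3
  right
  have h4' : (T y).ncard = 4 := by omega
  simp only [List.nodup_cons, List.mem_cons, List.not_mem_nil, or_false, not_or, List.nodup_nil,
    and_true, not_false_eq_true] at nd
  obtain ⟨⟨ab, ae, af⟩, ⟨be, bf⟩, ef⟩ := nd
  have hT : T y = {a, b, e, f} := by
    refine Set.eq_of_subset_of_ncard_le hs ?_ (Set.toFinite _)
    rw [h4']
    have h1 := Set.ncard_insert_le a ({b, e, f} : Set (Fin 6))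
    have h2 := Set.ncard_insert_le b ({e, f} : Set (Fin 6))
    have h3 := Set.ncard_insert_le e ({f} : Set (Fin 6))
    rw [Set.ncard_singleton] at h3
    omega
  refine ⟨hT, ?_⟩
  have hlim : ∃ᶠ v in 𝓝 y, T v = {a, b} :=
    (mem_closure_iff_frequently.1 hy).mono fun v hv => ex_self hv
  have key : ∀ {i j : Fin 6} {w : ℂ}, T y = {a, b, i, j} → T w ⊆ T y → j ∉ T w →
      T w ⊆ {a, b, i} := by
    intro i j w hT' hw hj m hm
    have h5 := hw hm
    rw [hT'] at h5
    rcases h5 with h5 | h5 | h5 | h5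
    · exact Or.inl h5
    · exact Or.inr (Or.inl h5)
    · exact Or.inr (Or.inr h5)
    · rw [mem_singleton_iff.1 h5] at hm; exact absurd hm hj
  have hT2 : T y = {a, b, f, e} := by
    rw [hT]; ext i; simp only [mem_insert_iff, mem_singleton_iff]; tauto
  rcases H22.dich_ef h hmin hT hlim ab ae af be bf ef with h1 | h1 | h1 | h1
  · left
    intro w hw hsub
    by_contra hf
    exact h1 w hw (key hT hsub hf)
  · right
    intro w hw hsub
    by_contra he
    exact h1 w hw (key hT2 hsub he)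
  · exact absurd h1 (hD (by omega) _ _ _ _)
  · exact absurd h1 (hD (by omega) _ _ _ _)

/-- good points of `H642` with the cusp lemma are good ends -/
theorem gd_mk (hG : H642.Gd T a b g p y) (hnv : p ∈ T y → ∀ x, dist x y = 1 → T x ≠ {g, p}) :
    H821.Gd T y a b g p := ⟨hG.1, hG.2.1, hG.2.2, hnv⟩

theorem pal_of (h : Irr U T) (hy : y ∈ closure (Ex T z {a, b})) (hs : T y ⊆ {a, b, e, f})
    (he : e ∈ T y) (hf : f ∈ T y) : T y = {a, b, e, f} := by
  refine Subset.antisymm hs ?_
  have h2 := sub_of_closure h hy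
  rintro i (rfl | rfl | rfl | hi)
  · exact h2 (by simp)
  · exact h2 (by simp)
  · exact he
  · rw [mem_singleton_iff.1 hi]; exact hf

/-- a good end, from the form of `H642` -/
theorem gd_of_gdE (h : Irr U T) (hE : GdE T z a b e f) (K : CuE T z a b e f)
    (hs : St T z y {a, b}) (hne : y ∉ Ex T z {a, b}) :
    H821.Gd T y a b e f ∨ H821.Gd T y a b f e := by
  have hy := H821.closure_of_st hs
  rcases hE y hy hne with h1 | h1
  · left
    exact gd_mk h1 fun hf => K y hs (pal_of h hy h1.2.1 h1.1 hf)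
  · right
    exact gd_mk h1 fun he => K.flip y hs (pal_of h hy h1.2.1 h1.1 he)

/-- **The cusp lemma at all special points of the closure** -/
theorem nvE_of (h : Irr U T) (hmn : Mn4 U T) (h4 : ∀ x, (T x).ncard ≤ 4) (w1 : W1)
    (hR : ∀ a b c d e f, Ctr U T z a b c d e f → PreW (Xs T z a b c d e f))
    (C : Ctr U T z a b c d e f) (eab : (Ex T z {a, b}).Nonempty) (ecd : (Ex T z {c, d}).Nonempty)
    (hab : ∀ y ∈ closure (Ex T z {a, b}), Hm T a b e f y)
    (hcd : ∀ y ∈ closure (Ex T z {c, d}), Hm T c d e f y)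
    (Kab : CuE T z a b e f) (Kcd : CuE T z c d e f) : NvE T z a b e f := by
  obtain ⟨⟨ab, ac, ad, ae, af⟩, ⟨bc, bd, be, bf⟩, ⟨cd, ce, cf⟩, ⟨de, df⟩, ef⟩ := C.sep
  intro V hV heV hfV x hx hTx
  have g1 := gdE_of h C ecd hab
  have g2 := gdE_of h C.swapAC eab hcd
  have R := hR _ _ _ _ _ _ C
  have C' := ctr_swapEF C
  have R' := hR _ _ _ _ _ _ C'
  have hVE : V ∉ Ex T z {a, b} := by
    intro h1
    rw [ex_self h1] at heV
    rcases heV with h2 | h2
    exacts [ae h2.symm, be h2.symm]
  have hTV : T V = {a, b, e, f} := by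
    rcases g1 V hV hVE with h1 | h1
    · exact pal_of h hV h1.2.1 heV hfV
    · refine pal_of h hV (h1.2.1.trans ?_) heV hfV
      intro i; simp only [mem_insert_iff, mem_singleton_iff]; tauto
  have hns : ¬ St T z V {a, b} := fun h1 => Kab V h1 hTV x hx hTx
  have hVP : T V ≠ {a, b} := by
    intro h1
    rw [h1] at heV
    rcases heV with h2 | h2
    exacts [ae h2.symm, be h2.symm]
  have hinf := ends_infinite h (Set.ncard_pair ab)
    (by rw [C.pal]; intro i; simp only [mem_insert_iff, mem_singleton_iff]; tauto) hV hVP hns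
  -- ends of the other pair
  obtain ⟨E1, E2, E3, E4, ⟨n12, n13, -, n23, -, -⟩, hq⟩ := ends4 C R hV heV hfV
  have hE : ∀ x, x = E1 ∨ x = E2 ∨ x = E3 →
      St T z x {c, d} ∧ (H821.Gd T x c d e f ∨ H821.Gd T x c d f e) := by
    intro x hx
    have h1 := hq x (by tauto)
    exact ⟨h1.1, gd_of_gdE h g2 Kcd h1.1 h1.2⟩
  -- clean ends of both marks
  have L : ∀ {e f : Fin 6}, Ctr U T z a b c d e f → GdE T z a b e f → GdE T z c d e f →
      L1s T z a b c d e f → ∃ q, (q ∈ closure (Ex T z {a, b}) ∧ T q = {a, b, f}) ∨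
      (q ∈ closure (Ex T z {c, d}) ∧ T q = {c, d, f}) := by
    intro e f C g1 g2 L1
    obtain ⟨⟨ab, ac, ad, ae, af⟩, ⟨bc, bd, be, bf⟩, ⟨cd, ce, cf⟩, ⟨de, df⟩, ef⟩ := C.sep
    have key : ∀ {a b : Fin 6} {y : ℂ}, a ≠ f → b ≠ f → GdE T z a b e f →
        y ∈ closure (Ex T z {a, b}) → f ∈ T y → e ∉ T y → T y = {a, b, f} := by
      intro a b y haf hbf hg hy hf he
      have hyE : y ∉ Ex T z {a, b} := by
        intro h1
        rw [ex_self h1] at hf
        rcases hf with h2 | h2
        exacts [haf h2.symm, hbf h2.symm]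
      have hs : T y ⊆ {a, b, f, e} := by
        rcases hg y hy hyE with h1 | h1
        · exact absurd h1.1 he
        · exact h1.2.1
      refine Subset.antisymm (fun i hi => ?_) ?_
      · rcases hs hi with h5 | h5 | h5 | h5
        · rw [h5]; simp
        · rw [h5]; simp
        · rw [h5]; simp
        · rw [mem_singleton_iff.1 h5] at hi; exact absurd hi he
      · have h2 := sub_of_closure h hy
        rintro i (rfl | rfl | hi)
        · exact h2 (by simp)
        · exact h2 (by simp)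
        · rw [mem_singleton_iff.1 hi]; exact hf
    obtain ⟨q, hq | hq, h1, h2⟩ := L1
    · exact ⟨q, Or.inl ⟨hq, key af bf g1 hq h1 h2⟩⟩
    · exact ⟨q, Or.inr ⟨hq, key cf df g2 hq h1 h2⟩⟩
  have sw : ∀ {a b : Fin 6}, GdE T z a b e f → GdE T z a b f e :=
    fun hg y hy hyE => (hg y hy hyE).symm
  have L1f := L C g1 g2 (l1s_of w1 R)
  have L1e := L C' (sw g1) (sw g2) (l1s_of w1 R')
  have hun : {w | Te T z w {a, b} ∧ T w ⊆ T V} ⊆
      {w | St T z w {a, b} ∧ H821.Gd T w a b e f} ∪ {w | St T z w {a, b} ∧ H821.Gd T w a b f e} := by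
    rintro w ⟨hw, -⟩
    have hwE : w ∉ Ex T z {a, b} := fun h1 => hw.2.ne' (ex_self h1)
    rcases gd_of_gdE h g1 Kab hw.1 hwE with h1 | h1
    · exact Or.inl ⟨hw.1, h1⟩
    · exact Or.inr ⟨hw.1, h1⟩
  rcases Set.infinite_union.1 (hinf.mono hun) with h1 | h1
  · exact no_inf h hmn h4 C.nd C.pal h1 (fun w hw => hw) n12 n13 n23 hE L1f
  · exact no_inf h hmn h4 C'.nd C.pal h1 (fun w hw => hw) n12 n13 n23
      (fun x hx => ⟨(hE x hx).1, (hE x hx).2.symm⟩) L1e

/-- **No special ends**, the cusp lemma at true end points only -/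
theorem no_special' (h : Irr U T) (hmn : Mn4 U T) (h4 : ∀ x, (T x).ncard ≤ 4) (w1 : W1) (w2 : W2)
    (hR : ∀ a b c d e f, Ctr U T z a b c d e f → PreW (Xs T z a b c d e f))
    (C : Ctr U T z a b c d e f) (eab : (Ex T z {a, b}).Nonempty) (ecd : (Ex T z {c, d}).Nonempty)
    (hab : ∀ y ∈ closure (Ex T z {a, b}), Hm T a b e f y)
    (hcd : ∀ y ∈ closure (Ex T z {c, d}), Hm T c d e f y)
    (Kab : CuE T z a b e f) (Kcd : CuE T z c d e f) :
    ∀ y, (y ∈ closure (Ex T z {a, b}) ∨ y ∈ closure (Ex T z {c, d})) → (T y).ncard ≤ 3 :=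
  no_special h hmn h4 w1 w2 hR C eab ecd hab hcd
    (nvE_of h hmn h4 w1 hR C eab ecd hab hcd Kab Kcd)
    (nvE_of h hmn h4 w1 hR C.swapAC ecd eab hcd hab Kcd Kab)

end Vale.Agent.P032.H821
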